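import Vale.Agent.Lib.P012.helper17.StageDefs

namespace Vale.Agent.Lib.P012

theorem harmonic_floor (A n : ℕ) : ∑ d ∈ Finset.Icc 1 n, A / d ≤ A * (Nat.log 2 n + 1) := by
  induction n using Nat.strong_induction_on with
  | _ n ih =>
    rcases Nat.lt_or_ge n 2 with hn | hn
    · interval_cases n
      · simp
      · simp
    · set m := n / 2 with hm
      have hmn : m < n := by omega
      have hsplit : Finset.Icc 1 n = Finset.Icc 1 m ∪ Finset.Icc (m + 1) n := by
        ext d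
        simp only [Finset.mem_Icc, Finset.mem_union]
        omega
      have hdisj : Disjoint (Finset.Icc 1 m) (Finset.Icc (m + 1) n) := by
        rw [Finset.disjoint_left]
        intro d h1 h2
        simp only [Finset.mem_Icc] at h1 h2
        omega
      rw [hsplit, Finset.sum_union hdisj]
      have h2 : ∑ d ∈ Finset.Icc (m + 1) n, A / d ≤ A := by
        calc ∑ d ∈ Finset.Icc (m + 1) n, A / d
            ≤ ∑ d ∈ Finset.Icc (m + 1) n, A / (m + 1) := by
              refine Finset.sum_le_sum fun d hd => ?_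
              exact Nat.div_le_div_left (Finset.mem_Icc.1 hd).1 (Nat.succ_pos m)
          _ = (n + 1 - (m + 1)) * (A / (m + 1)) := by
              rw [Finset.sum_const, Nat.card_Icc, smul_eq_mul]
          _ ≤ (m + 1) * (A / (m + 1)) := Nat.mul_le_mul_right _ (by omega)
          _ ≤ A := Nat.mul_div_le A (m + 1)
      have hlog : Nat.log 2 n = Nat.log 2 m + 1 := by
        rw [hm]
        exact Nat.log_of_one_lt_of_le (by norm_num) hn
      have h1 := ih m hmn
      rw [hlog]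
      calc ∑ d ∈ Finset.Icc 1 m, A / d + ∑ d ∈ Finset.Icc (m + 1) n, A / d
          ≤ A * (Nat.log 2 m + 1) + A := Nat.add_le_add h1 h2
        _ = A * (Nat.log 2 m + 1 + 1) := by ring

theorem sum_gS_le (ρ k : ℕ) (hk : 7 + k + 1 ≤ ρ)
    (hg : ∀ s, 7 ≤ s → s + 1 ≤ ρ → gS ρ s ≤ (96 * ρ + 98) / (ρ - s) + 1) :
    ∑ s ∈ Finset.Ico 7 (7 + k), gS ρ s ≤ (96 * ρ + 98) * (Nat.log 2 ρ + 1) + ρ := by
  set A := 96 * ρ + 98 with hA
  have h1 : ∑ s ∈ Finset.Ico 7 (7 + k), gS ρ s
      ≤ ∑ s ∈ Finset.Ico 7 (7 + k), (A / (ρ - s) + 1) := by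
    refine Finset.sum_le_sum fun s hs => ?_
    have hs' := Finset.mem_Ico.1 hs
    exact hg s hs'.1 (by omega)
  have hinj : Set.InjOn (fun s => ρ - s) (Finset.Ico 7 (7 + k) : Set ℕ) := by
    intro s hs s' hs' hss
    have h3 := Finset.mem_Ico.1 (Finset.mem_coe.1 hs)
    have h4 := Finset.mem_Ico.1 (Finset.mem_coe.1 hs')
    simp only at hss
    omega
  have h2 : ∑ s ∈ Finset.Ico 7 (7 + k), A / (ρ - s)
      = ∑ d ∈ (Finset.Ico 7 (7 + k)).image (fun s => ρ - s), A / d :=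
    (Finset.sum_image (f := fun d => A / d) hinj).symm
  have hsub : (Finset.Ico 7 (7 + k)).image (fun s => ρ - s) ⊆ Finset.Icc 1 (ρ - 7) := by
    intro d hd
    obtain ⟨s, hs, rfl⟩ := Finset.mem_image.1 hd
    have h3 := Finset.mem_Ico.1 hs
    rw [Finset.mem_Icc]
    omega
  have h3 : ∑ d ∈ (Finset.Ico 7 (7 + k)).image (fun s => ρ - s), A / d
      ≤ ∑ d ∈ Finset.Icc 1 (ρ - 7), A / d :=
    Finset.sum_le_sum_of_subset hsub
  have h4 := harmonic_floor A (ρ - 7)
  have h5 : Nat.log 2 (ρ - 7) ≤ Nat.log 2 ρ := Nat.log_mono_right (Nat.sub_le ρ 7)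
  have h6 : A * (Nat.log 2 (ρ - 7) + 1) ≤ A * (Nat.log 2 ρ + 1) :=
    Nat.mul_le_mul_left A (by omega)
  calc ∑ s ∈ Finset.Ico 7 (7 + k), gS ρ s
      ≤ ∑ s ∈ Finset.Ico 7 (7 + k), (A / (ρ - s) + 1) := h1
    _ = ∑ s ∈ Finset.Ico 7 (7 + k), A / (ρ - s) + k := by
        rw [Finset.sum_add_distrib, Finset.sum_const, Nat.card_Ico, smul_eq_mul, mul_one]
        congr 1
        omega
    _ ≤ A * (Nat.log 2 ρ + 1) + ρ := by
        rw [h2]
        exact Nat.add_le_add (h3.trans (h4.trans h6)) (by omega)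

end Vale.Agent.Lib.P012
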